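import Mathlib
import Crest.Prelude.Def_FinProb

/-!
Biased Fourier analysis on the finite cube `ι → Bool` with the product weight
`Crest.FinProb.bernoulliWeight p`: expectation, characters, orthonormality, expansion, Parseval.
-/

set_option autoImplicit false

namespace Crest.Agent.Lib.BiasedCube

open Finset Crest.FinProb

variable {ι : Type*} [Fintype ι] [DecidableEq ι]

/-- Weight of one coin. -/
noncomputable def cw (p : ℝ) (b : Bool) : ℝ := if b then p else 1 - p

/-- Expectation under independent coins of bias `p`. -/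
noncomputable def Ex (p : ℝ) (g : (ι → Bool) → ℝ) : ℝ :=
  ∑ x : ι → Bool, bernoulliWeight p x * g x

/-- The normalised centred coin. -/
noncomputable def phi (p : ℝ) (b : Bool) : ℝ :=
  ((if b then 1 else 0) - p) / Real.sqrt (p * (1 - p))

/-- The biased character of a finite set of coordinates. -/
noncomputable def chi (p : ℝ) (S : Finset ι) (x : ι → Bool) : ℝ := ∏ i ∈ S, phi p (x i)

/-- Biased Fourier coefficient. -/
noncomputable def fc (p : ℝ) (g : (ι → Bool) → ℝ) (S : Finset ι) : ℝ :=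
  Ex p (fun x => g x * chi p S x)

omit [DecidableEq ι] in
lemma bw_eq (p : ℝ) (x : ι → Bool) : bernoulliWeight p x = ∏ i, cw p (x i) := rfl

@[simp] lemma cw_true (p : ℝ) : cw p true = p := by simp [cw]
@[simp] lemma cw_false (p : ℝ) : cw p false = 1 - p := by simp [cw]

lemma cw_nonneg {p : ℝ} (h0 : 0 ≤ p) (h1 : p ≤ 1) (b : Bool) : 0 ≤ cw p b := by
  cases b <;> simp <;> linarith

lemma cw_pos {p : ℝ} (h0 : 0 < p) (h1 : p < 1) (b : Bool) : 0 < cw p b := by
  cases b <;> simp <;> linarith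

omit [DecidableEq ι] in
lemma bw_nonneg {p : ℝ} (h0 : 0 ≤ p) (h1 : p ≤ 1) (x : ι → Bool) :
    0 ≤ bernoulliWeight p x := by
  rw [bw_eq]; exact Finset.prod_nonneg fun i _ => cw_nonneg h0 h1 _

omit [DecidableEq ι] in
lemma bw_pos {p : ℝ} (h0 : 0 < p) (h1 : p < 1) (x : ι → Bool) :
    0 < bernoulliWeight p x := by
  rw [bw_eq]; exact Finset.prod_pos fun i _ => cw_pos h0 h1 _

lemma Ex_prod (p : ℝ) (h : ι → Bool → ℝ) :
    Ex p (fun x : ι → Bool => ∏ i, h i (x i)) = ∏ i, (p * h i true + (1 - p) * h i false) := by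
  have : ∀ i, p * h i true + (1 - p) * h i false = ∑ b ∈ (univ : Finset Bool), cw p b * h i b := by
    intro i; simp
  simp_rw [this]
  rw [Finset.prod_univ_sum, Fintype.piFinset_univ]
  unfold Ex
  refine Finset.sum_congr rfl fun x _ => ?_
  rw [bw_eq, ← Finset.prod_mul_distrib]

lemma Ex_one (p : ℝ) : Ex p (fun _ : ι → Bool => (1 : ℝ)) = 1 := by
  have := Ex_prod (ι := ι) p (fun _ _ => 1)
  simpa using this

lemma Ex_add (p : ℝ) (g h : (ι → Bool) → ℝ) :
    Ex p (fun x => g x + h x) = Ex p g + Ex p h := by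
  unfold Ex; simp_rw [mul_add]; rw [Finset.sum_add_distrib]

lemma Ex_sub (p : ℝ) (g h : (ι → Bool) → ℝ) :
    Ex p (fun x => g x - h x) = Ex p g - Ex p h := by
  unfold Ex; simp_rw [mul_sub]; rw [Finset.sum_sub_distrib]

lemma Ex_const_mul (p c : ℝ) (g : (ι → Bool) → ℝ) :
    Ex p (fun x => c * g x) = c * Ex p g := by
  unfold Ex; rw [Finset.mul_sum]; exact Finset.sum_congr rfl fun x _ => by ring

lemma Ex_mul_const (p c : ℝ) (g : (ι → Bool) → ℝ) :
    Ex p (fun x => g x * c) = Ex p g * c := by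
  unfold Ex; rw [Finset.sum_mul]; exact Finset.sum_congr rfl fun x _ => by ring

lemma Ex_const (p c : ℝ) : Ex p (fun _ : ι → Bool => c) = c := by
  have := Ex_const_mul (ι := ι) p c (fun _ => 1)
  rw [Ex_one] at this
  simpa using this

lemma Ex_sum {α : Type*} (p : ℝ) (s : Finset α) (g : α → (ι → Bool) → ℝ) :
    Ex p (fun x => ∑ a ∈ s, g a x) = ∑ a ∈ s, Ex p (g a) := by
  unfold Ex; simp_rw [Finset.mul_sum]; rw [Finset.sum_comm]

lemma Ex_mono {p : ℝ} (h0 : 0 ≤ p) (h1 : p ≤ 1) {g h : (ι → Bool) → ℝ} (hle : ∀ x, g x ≤ h x) :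
    Ex p g ≤ Ex p h :=
  Finset.sum_le_sum fun x _ => mul_le_mul_of_nonneg_left (hle x) (bw_nonneg h0 h1 x)

lemma Ex_nonneg {p : ℝ} (h0 : 0 ≤ p) (h1 : p ≤ 1) {g : (ι → Bool) → ℝ} (hg : ∀ x, 0 ≤ g x) :
    0 ≤ Ex p g :=
  Finset.sum_nonneg fun x _ => mul_nonneg (bw_nonneg h0 h1 x) (hg x)

lemma Ex_congr (p : ℝ) {g h : (ι → Bool) → ℝ} (he : ∀ x, g x = h x) : Ex p g = Ex p h := by
  have : g = h := funext he
  rw [this]

lemma bw_update_mul (p : ℝ) (x : ι → Bool) (e : ι) (b : Bool) :
    cw p (x e) * bernoulliWeight p (Function.update x e b) = cw p b * bernoulliWeight p x := by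
  rw [bw_eq, bw_eq, ← Finset.mul_prod_erase univ _ (mem_univ e),
    ← Finset.mul_prod_erase univ (fun i => cw p (x i)) (mem_univ e)]
  have : ∏ i ∈ univ.erase e, cw p (Function.update x e b i) = ∏ i ∈ univ.erase e, cw p (x i) := by
    refine Finset.prod_congr rfl fun i hi => ?_
    rw [Function.update_of_ne (Finset.ne_of_mem_erase hi)]
  rw [this, Function.update_self]; ring

/-- Resampling one coordinate does not change the expectation. -/
lemma Ex_split (p : ℝ) (e : ι) (g : (ι → Bool) → ℝ) :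
    Ex p g = Ex p (fun x => p * g (Function.update x e true)
      + (1 - p) * g (Function.update x e false)) := by
  let Φ : (ι → Bool) × Bool → (ι → Bool) × Bool := fun z => (Function.update z.1 e z.2, z.1 e)
  have hΦ : Function.Involutive Φ := by
    rintro ⟨x, b⟩
    simp [Φ]
  have h1 : ∑ z : (ι → Bool) × Bool, cw p z.2 * bernoulliWeight p z.1 * g z.1
      = ∑ z : (ι → Bool) × Bool, cw p (Φ z).2 * bernoulliWeight p (Φ z).1 * g (Φ z).1 :=
    (Equiv.sum_comp hΦ.toPerm
      (fun z : (ι → Bool) × Bool => cw p z.2 * bernoulliWeight p z.1 * g z.1)).symm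
  have h2 : ∑ z : (ι → Bool) × Bool, cw p z.2 * bernoulliWeight p z.1 * g z.1 = Ex p g := by
    rw [Fintype.sum_prod_type]
    unfold Ex
    refine Finset.sum_congr rfl fun x _ => ?_
    simp; ring
  rw [← h2, h1, Fintype.sum_prod_type]
  unfold Ex
  refine Finset.sum_congr rfl fun x _ => ?_
  simp only [Φ, bw_update_mul]
  simp; ring

lemma bw_piecewise_mul (p : ℝ) (J : Finset ι) (x y : ι → Bool) :
    bernoulliWeight p (J.piecewise y x) * bernoulliWeight p (J.piecewise x y)
      = bernoulliWeight p x * bernoulliWeight p y := by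
  simp only [bw_eq, ← Finset.prod_mul_distrib]
  refine Finset.prod_congr rfl fun i _ => ?_
  by_cases hi : i ∈ J
  · simp [hi, mul_comm]
  · simp [hi]

/-- Fubini for a restriction: resample the coordinates in `J`. -/
lemma Ex_Ex_piecewise (p : ℝ) (J : Finset ι) (g : (ι → Bool) → ℝ) :
    Ex p (fun x => Ex p (fun y => g (J.piecewise y x))) = Ex p g := by
  let Φ : (ι → Bool) × (ι → Bool) → (ι → Bool) × (ι → Bool) :=
    fun z => (J.piecewise z.2 z.1, J.piecewise z.1 z.2)
  have hΦ : Function.Involutive Φ := by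
    rintro ⟨x, y⟩
    simp only [Φ]
    refine Prod.ext ?_ ?_ <;> funext i <;> by_cases hi : i ∈ J <;> simp [hi]
  have h1 : ∑ z : (ι → Bool) × (ι → Bool), bernoulliWeight p z.1 * bernoulliWeight p z.2 * g z.1
      = ∑ z : (ι → Bool) × (ι → Bool),
        bernoulliWeight p (Φ z).1 * bernoulliWeight p (Φ z).2 * g (Φ z).1 :=
    (Equiv.sum_comp hΦ.toPerm
      (fun z : (ι → Bool) × (ι → Bool) =>
        bernoulliWeight p z.1 * bernoulliWeight p z.2 * g z.1)).symm
  have h2 : ∑ z : (ι → Bool) × (ι → Bool), bernoulliWeight p z.1 * bernoulliWeight p z.2 * g z.1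
      = Ex p g := by
    rw [Fintype.sum_prod_type]
    unfold Ex
    refine Finset.sum_congr rfl fun x _ => ?_
    have h := Ex_one (ι := ι) p
    unfold Ex at h
    simp only [mul_one] at h
    simp only
    rw [← Finset.sum_mul, ← Finset.mul_sum, h, mul_one]
  rw [← h2, h1, Fintype.sum_prod_type]
  unfold Ex
  refine Finset.sum_congr rfl fun x _ => ?_
  rw [Finset.mul_sum]
  refine Finset.sum_congr rfl fun y _ => ?_
  simp only [Φ, bw_piecewise_mul]
  ring

/-- Invariance of the expectation under a permutation of the coordinates. -/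
lemma Ex_comp_perm (p : ℝ) (τ : Equiv.Perm ι) (g : (ι → Bool) → ℝ) :
    Ex p (fun x => g (x ∘ τ)) = Ex p g := by
  unfold Ex
  have hw : ∀ x : ι → Bool, bernoulliWeight p (x ∘ τ) = bernoulliWeight p x := by
    intro x
    rw [bw_eq, bw_eq]
    exact Equiv.prod_comp τ (fun i => cw p (x i))
  let E : (ι → Bool) ≃ (ι → Bool) := Equiv.arrowCongr τ.symm (Equiv.refl Bool)
  have hE : ∀ x, E x = x ∘ τ := by intro x; funext i; simp [E]
  rw [← Equiv.sum_comp E (fun x => bernoulliWeight p x * g x)]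
  refine Finset.sum_congr rfl fun x _ => ?_
  rw [hE, hw]

section Phi

variable {p : ℝ}

lemma sig_pos (h0 : 0 < p) (h1 : p < 1) : 0 < Real.sqrt (p * (1 - p)) :=
  Real.sqrt_pos.2 (mul_pos h0 (by linarith))

lemma sig_sq (h0 : 0 < p) (h1 : p < 1) : Real.sqrt (p * (1 - p)) ^ 2 = p * (1 - p) :=
  Real.sq_sqrt (mul_pos h0 (by linarith)).le

lemma phi_mean (p : ℝ) : p * phi p true + (1 - p) * phi p false = 0 := by
  simp only [phi]; simp; ring

lemma phi_sq_mean (h0 : 0 < p) (h1 : p < 1) :
    p * (phi p true * phi p true) + (1 - p) * (phi p false * phi p false) = 1 := by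
  have hs := sig_pos h0 h1
  have hs2 := sig_sq h0 h1
  simp only [phi]
  simp only [if_true, Bool.false_eq_true, if_false]
  field_simp
  rw [hs2]; ring

lemma one_add_phi_mul_phi (h0 : 0 < p) (h1 : p < 1) (a b : Bool) :
    cw p b * (1 + phi p b * phi p a) = if b = a then 1 else 0 := by
  have hs := sig_pos h0 h1
  have hs2 := sig_sq h0 h1
  cases a <;> cases b <;> simp only [phi, cw_true, cw_false] <;>
    simp only [if_true, Bool.false_eq_true, if_false, Bool.true_eq_false] <;>
    field_simp <;> rw [hs2] <;> ring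

end Phi

omit [Fintype ι] in
lemma chi_update_of_notMem (p : ℝ) {S : Finset ι} {e : ι} (he : e ∉ S) (x : ι → Bool) (b : Bool) :
    chi p S (Function.update x e b) = chi p S x := by
  unfold chi
  refine Finset.prod_congr rfl fun i hi => ?_
  rw [Function.update_of_ne (by rintro rfl; exact he hi)]

omit [Fintype ι] in
lemma chi_insert (p : ℝ) {S : Finset ι} {e : ι} (he : e ∉ S) (x : ι → Bool) :
    chi p (insert e S) x = phi p (x e) * chi p S x := by
  unfold chi; rw [Finset.prod_insert he]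

omit [Fintype ι] [DecidableEq ι] in
@[simp] lemma chi_empty (p : ℝ) (x : ι → Bool) : chi p ∅ x = 1 := by simp [chi]

lemma chi_eq_prod_ite (p : ℝ) (S : Finset ι) (x : ι → Bool) :
    chi p S x = ∏ i, if i ∈ S then phi p (x i) else 1 := by
  unfold chi
  rw [Finset.prod_ite_mem]; simp

lemma Ex_chi_mul_chi {p : ℝ} (h0 : 0 < p) (h1 : p < 1) (S T : Finset ι) :
    Ex p (fun x => chi p S x * chi p T x) = if S = T then 1 else 0 := by
  have : (fun x : ι → Bool => chi p S x * chi p T x) = fun x => ∏ i,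
      (fun i b => (if i ∈ S then phi p b else 1) * (if i ∈ T then phi p b else 1)) i (x i) := by
    funext x
    rw [chi_eq_prod_ite, chi_eq_prod_ite, ← Finset.prod_mul_distrib]
  rw [this, Ex_prod p
    (fun i b => (if i ∈ S then phi p b else 1) * (if i ∈ T then phi p b else 1))]
  split_ifs with h
  · subst h
    refine Finset.prod_eq_one fun i _ => ?_
    by_cases hi : i ∈ S
    · simp only [hi, if_true]; exact phi_sq_mean h0 h1
    · simp [hi]
  · have : ∃ i, ¬ (i ∈ S ↔ i ∈ T) := by
      by_contra hc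
      push Not at hc
      exact h (Finset.ext hc)
    obtain ⟨i, hi⟩ := this
    refine Finset.prod_eq_zero (mem_univ i) ?_
    by_cases hS : i ∈ S <;> by_cases hT : i ∈ T
    · exact absurd (iff_of_true hS hT) hi
    · simp only [hS, hT, if_true, if_false, mul_one]; exact phi_mean p
    · simp only [hS, hT, if_true, if_false, one_mul]; exact phi_mean p
    · exact absurd (iff_of_false hS hT) hi

omit [DecidableEq ι] in
lemma bw_mul_sum_chi_chi {p : ℝ} (h0 : 0 < p) (h1 : p < 1) (x y : ι → Bool) :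
    bernoulliWeight p y * ∑ S : Finset ι, chi p S y * chi p S x = if y = x then 1 else 0 := by
  have : ∑ S : Finset ι, chi p S y * chi p S x = ∏ i, (1 + phi p (y i) * phi p (x i)) := by
    rw [Finset.prod_one_add, Finset.powerset_univ]
    refine Finset.sum_congr rfl fun S _ => ?_
    unfold chi; rw [Finset.prod_mul_distrib]
  rw [this, bw_eq, ← Finset.prod_mul_distrib]
  simp_rw [one_add_phi_mul_phi h0 h1]
  split_ifs with h
  · subst h; simp
  · obtain ⟨i, hi⟩ := Function.ne_iff.1 h
    exact Finset.prod_eq_zero (mem_univ i) (by simp [hi])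

/-- Fourier expansion. -/
lemma expansion {p : ℝ} (h0 : 0 < p) (h1 : p < 1) (g : (ι → Bool) → ℝ) (x : ι → Bool) :
    g x = ∑ S : Finset ι, fc p g S * chi p S x := by
  unfold fc Ex
  simp_rw [Finset.sum_mul]
  rw [Finset.sum_comm]
  have : ∀ y : ι → Bool, ∑ S : Finset ι, bernoulliWeight p y * (g y * chi p S y) * chi p S x
      = g y * (if y = x then 1 else 0) := by
    intro y
    rw [← bw_mul_sum_chi_chi h0 h1 x y, Finset.mul_sum, Finset.mul_sum]
    exact Finset.sum_congr rfl fun S _ => by ring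
  simp_rw [this]
  simp

/-- Parseval / Plancherel. -/
lemma parseval {p : ℝ} (h0 : 0 < p) (h1 : p < 1) (g h : (ι → Bool) → ℝ) :
    Ex p (fun x => g x * h x) = ∑ S : Finset ι, fc p g S * fc p h S := by
  have : (fun x => g x * h x) = fun x => ∑ S : Finset ι, fc p h S * (g x * chi p S x) := by
    funext x
    conv_lhs => rw [expansion h0 h1 h x, Finset.mul_sum]
    exact Finset.sum_congr rfl fun S _ => by ring
  rw [this, Ex_sum]
  refine Finset.sum_congr rfl fun S _ => ?_
  rw [Ex_const_mul, mul_comm]; rfl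

lemma parseval_sq {p : ℝ} (h0 : 0 < p) (h1 : p < 1) (g : (ι → Bool) → ℝ) :
    Ex p (fun x => g x ^ 2) = ∑ S : Finset ι, fc p g S ^ 2 := by
  simp_rw [sq]; exact parseval h0 h1 g g

lemma fc_empty (p : ℝ) (g : (ι → Bool) → ℝ) : fc p g ∅ = Ex p g := by
  unfold fc; simp

/-- The second moment of a combination of distinct characters. -/
lemma Ex_sq_sum_chi {p : ℝ} (h0 : 0 < p) (h1 : p < 1) {α : Type*} (s : Finset α)
    (ψ : α → Finset ι) (hψ : Set.InjOn ψ s) (c : α → ℝ) :
    Ex p (fun x => (∑ a ∈ s, c a * chi p (ψ a) x) ^ 2) = ∑ a ∈ s, c a ^ 2 := by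
  classical
  have : (fun x => (∑ a ∈ s, c a * chi p (ψ a) x) ^ 2)
      = fun x => ∑ a ∈ s, ∑ b ∈ s, (c a * c b) * (chi p (ψ a) x * chi p (ψ b) x) := by
    funext x
    rw [sq, Finset.sum_mul_sum]
    exact Finset.sum_congr rfl fun a _ => Finset.sum_congr rfl fun b _ => by ring
  rw [this, Ex_sum]
  refine Finset.sum_congr rfl fun a ha => ?_
  rw [Ex_sum]
  simp_rw [Ex_const_mul, Ex_chi_mul_chi h0 h1]
  rw [Finset.sum_eq_single a]
  · simp [sq]
  · intro b hb hba
    rw [if_neg, mul_zero]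
    intro h
    exact hba (hψ ha hb h).symm
  · intro h; exact absurd ha h

/-- Fourier coefficients are invariant under a symmetry of the function. -/
lemma fc_map_perm (p : ℝ) (τ : Equiv.Perm ι) (g : (ι → Bool) → ℝ) (hg : ∀ x, g (x ∘ τ) = g x)
    (S : Finset ι) : fc p g (S.map τ.toEmbedding) = fc p g S := by
  unfold fc
  rw [← Ex_comp_perm p τ (fun x => g x * chi p S x)]
  refine Ex_congr p fun x => ?_
  rw [hg]
  unfold chi
  rw [Finset.prod_map]
  rfl

end Crest.Agent.Lib.BiasedCube
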