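import Crest.Agent.Lib.BiasedCube.Basic

/-!
Biased (4,2) hypercontractivity (Bonami's lemma), the one-coordinate operator `Lop`,
pivotal influences of Boolean functions and restrictions.
-/

set_option autoImplicit false

namespace Crest.Agent.Lib.BiasedCube

open Finset Crest.FinProb

variable {ι : Type*} [Fintype ι] [DecidableEq ι]

/-- The hypercontractive rate. -/
noncomputable def rho (p : ℝ) : ℝ := 2 / (p * (1 - p))

lemma a_le_quarter (p : ℝ) : p * (1 - p) ≤ 1 / 4 := by nlinarith [sq_nonneg (p - 1 / 2)]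

lemma eight_le_rho {p : ℝ} (h0 : 0 < p) (h1 : p < 1) : 8 ≤ rho p := by
  unfold rho
  have ha : 0 < p * (1 - p) := mul_pos h0 (by linarith)
  rw [le_div_iff₀ ha]
  have := a_le_quarter p
  linarith

lemma two_point {p : ℝ} (h0 : 0 < p) (h1 : p < 1) (u v : ℝ) :
    p * (u + phi p true * v) ^ 4 + (1 - p) * (u + phi p false * v) ^ 4
      ≤ u ^ 4 + 2 * rho p * (u ^ 2 * v ^ 2) + rho p ^ 2 * v ^ 4 := by
  have hs := sig_pos h0 h1
  have hs2 := sig_sq h0 h1
  have ha : 0 < p * (1 - p) := mul_pos h0 (by linarith)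
  have hr := eight_le_rho h0 h1
  have m1 := phi_mean p
  have m2 := phi_sq_mean h0 h1
  set s := Real.sqrt (p * (1 - p)) with hsdef
  have e1 : phi p true = (1 - p) / s := by simp [phi, hsdef]
  have e0 : phi p false = -p / s := by simp [phi, hsdef]
  set m3 := p * phi p true ^ 3 + (1 - p) * phi p false ^ 3 with hm3
  set m4 := p * phi p true ^ 4 + (1 - p) * phi p false ^ 4 with hm4
  have hm3' : m3 = (1 - 2 * p) / s := by
    rw [hm3, e1, e0]; field_simp; rw [hs2]; ring
  have hm4' : m4 = (1 - 3 * (p * (1 - p))) / (p * (1 - p)) := by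
    rw [hm4, e1, e0, div_pow, div_pow]
    have : s ^ 4 = (p * (1 - p)) ^ 2 := by rw [← hs2]; ring
    rw [this]
    have hp' : (1 - p) ≠ 0 := by linarith
    field_simp; ring
  have hrho2 : rho p / 2 = 1 / (p * (1 - p)) := by unfold rho; ring
  have hm3sq : m3 ^ 2 ≤ rho p / 2 := by
    rw [hm3', div_pow, hs2, hrho2, div_le_div_iff_of_pos_right ha]
    nlinarith
  have hm4le : m4 ≤ rho p / 2 := by
    rw [hm4', hrho2, div_le_div_iff_of_pos_right ha]
    nlinarith
  have key : p * (u + phi p true * v) ^ 4 + (1 - p) * (u + phi p false * v) ^ 4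
      = u ^ 4 + 4 * (p * phi p true + (1 - p) * phi p false) * (u ^ 3 * v)
        + 6 * (p * (phi p true * phi p true) + (1 - p) * (phi p false * phi p false))
          * (u ^ 2 * v ^ 2) + 4 * m3 * (u * v ^ 3) + m4 * v ^ 4 := by
    rw [hm3, hm4]; ring
  rw [key, m1, m2]
  have h2 : 0 ≤ u ^ 2 * v ^ 2 := by positivity
  have h4 : 0 ≤ v ^ 4 := by positivity
  have h5 : 4 * m3 * (u * v ^ 3) ≤ 4 * (u ^ 2 * v ^ 2) + m3 ^ 2 * v ^ 4 := by
    nlinarith [sq_nonneg (2 * u * v - m3 * v ^ 2)]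
  have h6 : m3 ^ 2 * v ^ 4 ≤ rho p / 2 * v ^ 4 := mul_le_mul_of_nonneg_right hm3sq h4
  have h7 : m4 * v ^ 4 ≤ rho p / 2 * v ^ 4 := mul_le_mul_of_nonneg_right hm4le h4
  have h8 : rho p * v ^ 4 ≤ rho p ^ 2 * v ^ 4 :=
    mul_le_mul_of_nonneg_right (by nlinarith) h4
  have h9 : 10 * (u ^ 2 * v ^ 2) ≤ 2 * rho p * (u ^ 2 * v ^ 2) :=
    mul_le_mul_of_nonneg_right (by linarith) h2
  linarith

lemma Ex_sq_mul_sq_le {p : ℝ} (h0 : 0 ≤ p) (h1 : p ≤ 1) (u v : (ι → Bool) → ℝ) {U V : ℝ}
    (hU : 0 ≤ U) (hV : 0 ≤ V) (hu : Ex p (fun x => u x ^ 4) ≤ U ^ 2)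
    (hv : Ex p (fun x => v x ^ 4) ≤ V ^ 2) :
    Ex p (fun x => u x ^ 2 * v x ^ 2) ≤ U * V := by
  have hcs : (Ex p (fun x => u x ^ 2 * v x ^ 2)) ^ 2
      ≤ Ex p (fun x => u x ^ 4) * Ex p (fun x => v x ^ 4) := by
    unfold Ex
    refine Finset.sum_sq_le_sum_mul_sum_of_sq_le_mul _ ?_ ?_ ?_
    · intro x _; exact mul_nonneg (bw_nonneg h0 h1 x) (by positivity)
    · intro x _; exact mul_nonneg (bw_nonneg h0 h1 x) (by positivity)
    · intro x _; exact le_of_eq (by ring)
  have h4u : 0 ≤ Ex p (fun x => u x ^ 4) := Ex_nonneg h0 h1 fun x => by positivity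
  have h4v : 0 ≤ Ex p (fun x => v x ^ 4) := Ex_nonneg h0 h1 fun x => by positivity
  have : (Ex p (fun x => u x ^ 2 * v x ^ 2)) ^ 2 ≤ (U * V) ^ 2 := by
    rw [mul_pow]
    exact hcs.trans (mul_le_mul hu hv h4v (by positivity))
  exact (abs_le_of_sq_le_sq' this (mul_nonneg hU hV)).2

/-- Biased Bonami lemma, weighted form. -/
lemma bonami_powerset {p : ℝ} (h0 : 0 < p) (h1 : p < 1) (J : Finset ι) (c : Finset ι → ℝ) :
    Ex p (fun x => (∑ T ∈ J.powerset, c T * chi p T x) ^ 4)
      ≤ (∑ T ∈ J.powerset, rho p ^ T.card * c T ^ 2) ^ 2 := by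
  have hr := eight_le_rho h0 h1
  have hr0 : 0 ≤ rho p := by linarith
  induction J using Finset.induction_on generalizing c with
  | empty =>
    simp only [Finset.powerset_empty, Finset.sum_singleton, chi_empty, mul_one, Finset.card_empty,
      pow_zero, one_mul]
    rw [Ex_const]; exact le_of_eq (by ring)
  | insert e J he ih =>
    set u : (ι → Bool) → ℝ := fun x => ∑ T ∈ J.powerset, c T * chi p T x with hu
    set v : (ι → Bool) → ℝ := fun x => ∑ T ∈ J.powerset, c (insert e T) * chi p T x with hv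
    set U : ℝ := ∑ T ∈ J.powerset, rho p ^ T.card * c T ^ 2 with hU
    set V : ℝ := ∑ T ∈ J.powerset, rho p ^ T.card * c (insert e T) ^ 2 with hV
    have hnot : ∀ T ∈ J.powerset, e ∉ T := fun T hT h => he (Finset.mem_powerset.1 hT h)
    have hU0 : 0 ≤ U := Finset.sum_nonneg fun T _ => by positivity
    have hV0 : 0 ≤ V := Finset.sum_nonneg fun T _ => by positivity
    have ihu : Ex p (fun x => u x ^ 4) ≤ U ^ 2 := ih c
    have ihv : Ex p (fun x => v x ^ 4) ≤ V ^ 2 := ih (fun T => c (insert e T))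
    have hfun : ∀ x, ∑ T ∈ (insert e J).powerset, c T * chi p T x = u x + phi p (x e) * v x := by
      intro x
      rw [Finset.sum_powerset_insert he, hv, Finset.mul_sum]
      congr 1
      refine Finset.sum_congr rfl fun T hT => ?_
      rw [chi_insert p (hnot T hT)]; ring
    have hrhs : ∑ T ∈ (insert e J).powerset, rho p ^ T.card * c T ^ 2 = U + rho p * V := by
      rw [Finset.sum_powerset_insert he, hV, Finset.mul_sum]
      congr 1
      refine Finset.sum_congr rfl fun T hT => ?_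
      rw [Finset.card_insert_of_notMem (hnot T hT)]; ring
    have huu : ∀ x b, u (Function.update x e b) = u x := by
      intro x b
      simp only [hu]
      exact Finset.sum_congr rfl fun T hT => by rw [chi_update_of_notMem p (hnot T hT)]
    have hvv : ∀ x b, v (Function.update x e b) = v x := by
      intro x b
      simp only [hv]
      exact Finset.sum_congr rfl fun T hT => by rw [chi_update_of_notMem p (hnot T hT)]
    simp_rw [hfun]
    rw [hrhs, Ex_split p e]
    simp only [huu, hvv, Function.update_self]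
    refine (Ex_mono h0.le h1.le (fun x => two_point h0 h1 (u x) (v x))).trans ?_
    rw [Ex_add, Ex_add, Ex_const_mul, Ex_const_mul]
    have huv := Ex_sq_mul_sq_le h0.le h1.le u v hU0 hV0 ihu ihv
    have e1 : 2 * rho p * Ex p (fun x => u x ^ 2 * v x ^ 2) ≤ 2 * rho p * (U * V) :=
      mul_le_mul_of_nonneg_left huv (by linarith)
    have e2 : rho p ^ 2 * Ex p (fun x => v x ^ 4) ≤ rho p ^ 2 * V ^ 2 :=
      mul_le_mul_of_nonneg_left ihv (by positivity)
    nlinarith

/-- Biased Bonami lemma for a polynomial of degree at most `k`. -/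
lemma bonami {p : ℝ} (h0 : 0 < p) (h1 : p < 1) (𝓣 : Finset (Finset ι)) (k : ℕ)
    (hk : ∀ T ∈ 𝓣, T.card ≤ k) (c : Finset ι → ℝ) :
    Ex p (fun x => (∑ T ∈ 𝓣, c T * chi p T x) ^ 4)
      ≤ (rho p ^ k * ∑ T ∈ 𝓣, c T ^ 2) ^ 2 := by
  have hr := eight_le_rho h0 h1
  have h := bonami_powerset h0 h1 (univ : Finset ι) (fun T => if T ∈ 𝓣 then c T else 0)
  have e1 : ∀ x, ∑ T ∈ (univ : Finset ι).powerset, (if T ∈ 𝓣 then c T else 0) * chi p T x
      = ∑ T ∈ 𝓣, c T * chi p T x := by
    intro x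
    simp only [ite_mul, zero_mul, Finset.powerset_univ]
    rw [Finset.sum_ite_mem]; simp
  have e2 : ∑ T ∈ (univ : Finset ι).powerset, rho p ^ T.card * (if T ∈ 𝓣 then c T else 0) ^ 2
      = ∑ T ∈ 𝓣, rho p ^ T.card * c T ^ 2 := by
    have : ∀ T : Finset ι, rho p ^ T.card * (if T ∈ 𝓣 then c T else 0) ^ 2
        = if T ∈ 𝓣 then rho p ^ T.card * c T ^ 2 else 0 := by
      intro T; split_ifs <;> simp
    simp only [this, Finset.powerset_univ]
    rw [Finset.sum_ite_mem]; simp
  simp_rw [e1] at h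
  rw [e2] at h
  refine h.trans (pow_le_pow_left₀ (Finset.sum_nonneg fun T _ => by positivity) ?_ 2)
  rw [Finset.mul_sum]
  refine Finset.sum_le_sum fun T hT => ?_
  exact mul_le_mul_of_nonneg_right (pow_le_pow_right₀ (by linarith) (hk T hT)) (sq_nonneg _)

/-- The part of `g` that depends on the coordinate `e`. -/
noncomputable def Lop (p : ℝ) (e : ι) (g : (ι → Bool) → ℝ) (x : ι → Bool) : ℝ :=
  g x - (p * g (Function.update x e true) + (1 - p) * g (Function.update x e false))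

lemma fc_Lop_of_mem (p : ℝ) {e : ι} {S : Finset ι} (he : e ∈ S) (g : (ι → Bool) → ℝ) :
    fc p (Lop p e g) S = fc p g S := by
  unfold fc Lop
  simp_rw [sub_mul]
  rw [Ex_sub, sub_eq_self, Ex_split p e]
  have hS : S = insert e (S.erase e) := (Finset.insert_erase he).symm
  have hn : e ∉ S.erase e := Finset.notMem_erase e S
  have : ∀ x b, chi p S (Function.update x e b) = phi p b * chi p (S.erase e) x := by
    intro x b
    conv_lhs => rw [hS]
    rw [chi_insert p hn, chi_update_of_notMem p hn, Function.update_self]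
  simp only [this, Function.update_idem]
  rw [← Ex_const (ι := ι) p 0]
  refine Ex_congr p fun x => ?_
  have := phi_mean p
  linear_combination ((p * g (Function.update x e true) + (1 - p) * g (Function.update x e false))
    * chi p (S.erase e) x) * this

lemma fc_Lop_of_notMem (p : ℝ) {e : ι} {S : Finset ι} (he : e ∉ S) (g : (ι → Bool) → ℝ) :
    fc p (Lop p e g) S = 0 := by
  unfold fc Lop
  rw [Ex_split p e]
  simp only [chi_update_of_notMem p he, Function.update_idem]
  rw [← Ex_const (ι := ι) p 0]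
  exact Ex_congr p fun x => by ring

/-- The 0-1 value of a Boolean function. -/
noncomputable def ind (f : (ι → Bool) → Bool) (x : ι → Bool) : ℝ := if f x then 1 else 0

/-- Pivotal influence as an expectation. -/
noncomputable def Inf (p : ℝ) (f : (ι → Bool) → Bool) (e : ι) : ℝ :=
  Ex p (fun x => if f (Function.update x e true) ≠ f (Function.update x e false) then 1 else 0)

lemma Inf_nonneg {p : ℝ} (h0 : 0 ≤ p) (h1 : p ≤ 1) (f : (ι → Bool) → Bool) (e : ι) :
    0 ≤ Inf p f e :=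
  Ex_nonneg h0 h1 fun x => by split_ifs <;> norm_num

lemma bernoulliProb_eq_Ex (p : ℝ) (E : Set (ι → Bool)) [DecidablePred (· ∈ E)] :
    bernoulliProb p E = Ex p (fun x => if x ∈ E then 1 else 0) := by
  unfold bernoulliProb Ex
  rw [Finset.sum_filter]
  refine Finset.sum_congr rfl fun x _ => ?_
  by_cases h : x ∈ E <;> simp [h]

lemma Ex_Lop_sq (p : ℝ) (f : (ι → Bool) → Bool) (e : ι) :
    Ex p (fun x => Lop p e (ind f) x ^ 2) = p * (1 - p) * Inf p f e := by
  unfold Inf
  rw [Ex_split p e, ← Ex_const_mul]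
  refine Ex_congr p fun x => ?_
  simp only [Lop, Function.update_idem, ind]
  cases f (Function.update x e true) <;> cases f (Function.update x e false) <;> simp <;> ring

lemma Ex_Lop_abs {p : ℝ} (h0 : 0 ≤ p) (h1 : p ≤ 1) (f : (ι → Bool) → Bool) (e : ι) :
    Ex p (fun x => |Lop p e (ind f) x|) = 2 * (p * (1 - p)) * Inf p f e := by
  unfold Inf
  rw [Ex_split p e, ← Ex_const_mul]
  refine Ex_congr p fun x => ?_
  simp only [Lop, Function.update_idem, ind]
  have h1' : 0 ≤ 1 - p := by linarith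
  cases f (Function.update x e true) <;> cases f (Function.update x e false) <;>
    simp [abs_of_nonneg h0, abs_of_nonneg h1', abs_sub_comm p 1] <;> ring

omit [Fintype ι] in
lemma abs_Lop_le_one {p : ℝ} (h0 : 0 ≤ p) (h1 : p ≤ 1) (f : (ι → Bool) → Bool) (e : ι)
    (x : ι → Bool) : |Lop p e (ind f) x| ≤ 1 := by
  simp only [Lop, ind]
  rw [abs_le]
  cases f x <;> cases f (Function.update x e true) <;> cases f (Function.update x e false) <;>
    simp <;> (try constructor) <;> linarith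

/-- The Fourier weight on sets containing `e` is `p (1-p)` times the pivotal influence. -/
lemma sum_fc_sq_mem {p : ℝ} (h0 : 0 < p) (h1 : p < 1) (f : (ι → Bool) → Bool) (e : ι) :
    ∑ S ∈ (univ : Finset (Finset ι)).filter (fun S => e ∈ S), fc p (ind f) S ^ 2
      = p * (1 - p) * Inf p f e := by
  rw [← Ex_Lop_sq, parseval_sq h0 h1, Finset.sum_filter]
  refine Finset.sum_congr rfl fun S _ => ?_
  split_ifs with h
  · rw [fc_Lop_of_mem p h]
  · rw [fc_Lop_of_notMem p h]; simp

lemma sum_fc_sq_ind {p : ℝ} (h0 : 0 < p) (h1 : p < 1) (f : (ι → Bool) → Bool) :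
    ∑ S : Finset ι, fc p (ind f) S ^ 2 = Ex p (ind f) := by
  rw [← parseval_sq h0 h1]
  refine Ex_congr p fun x => ?_
  unfold ind; split_ifs <;> simp

lemma Ex_ind_le_one {p : ℝ} (h0 : 0 ≤ p) (h1 : p ≤ 1) (f : (ι → Bool) → Bool) :
    Ex p (ind f) ≤ 1 := by
  rw [← Ex_const (ι := ι) p 1]
  refine Ex_mono h0 h1 fun x => ?_
  unfold ind; split_ifs <;> simp

/-- Variance as the Fourier weight on nonempty sets. -/
lemma var_eq_sum {p : ℝ} (h0 : 0 < p) (h1 : p < 1) (f : (ι → Bool) → Bool) :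
    Ex p (ind f) * (1 - Ex p (ind f))
      = ∑ S ∈ (univ : Finset (Finset ι)).erase ∅, fc p (ind f) S ^ 2 := by
  have h := sum_fc_sq_ind h0 h1 f
  rw [← Finset.add_sum_erase univ _ (mem_univ ∅), fc_empty] at h
  linarith

/-- Total degree-weighted Fourier weight. -/
lemma sum_card_mul_fc_sq {p : ℝ} (h0 : 0 < p) (h1 : p < 1) (f : (ι → Bool) → Bool) :
    ∑ S : Finset ι, (S.card : ℝ) * fc p (ind f) S ^ 2 = p * (1 - p) * ∑ e, Inf p f e := by
  rw [Finset.mul_sum]
  simp_rw [← sum_fc_sq_mem h0 h1, Finset.sum_filter]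
  rw [Finset.sum_comm]
  refine Finset.sum_congr rfl fun S _ => ?_
  rw [← Finset.sum_filter]
  simp

/-- If the low-degree weight through `e` is small, it is a small multiple of the influence. -/
lemma core {p : ℝ} (h0 : 0 < p) (h1 : p < 1) (f : (ι → Bool) → Bool) (e : ι)
    (𝓣 : Finset (Finset ι)) (k : ℕ) (β lam : ℝ) (hk : ∀ T ∈ 𝓣, T.card ≤ k)
    (he : ∀ T ∈ 𝓣, e ∈ T) (hβ : ∑ T ∈ 𝓣, fc p (ind f) T ^ 2 ≤ β) (hlam : 0 < lam)
    (h : 2 * rho p ^ (2 * k) * β ≤ lam ^ 3) :
    ∑ T ∈ 𝓣, fc p (ind f) T ^ 2 ≤ 4 * lam * (p * (1 - p)) * Inf p f e := by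
  set η := ∑ T ∈ 𝓣, fc p (ind f) T ^ 2 with hη
  have hη0 : 0 ≤ η := Finset.sum_nonneg fun T _ => sq_nonneg _
  set H : (ι → Bool) → ℝ := fun x => ∑ T ∈ 𝓣, fc p (ind f) T * chi p T x with hH
  have hl3 : 0 < lam ^ 3 := by positivity
  have e1 : Ex p (fun x => Lop p e (ind f) x * H x) = η := by
    have : (fun x => Lop p e (ind f) x * H x)
        = fun x => ∑ T ∈ 𝓣, fc p (ind f) T * (Lop p e (ind f) x * chi p T x) := by
      funext x
      simp only [hH]
      rw [Finset.mul_sum]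
      exact Finset.sum_congr rfl fun T _ => by ring
    rw [this, Ex_sum]
    refine Finset.sum_congr rfl fun T hT => ?_
    rw [Ex_const_mul]
    have := fc_Lop_of_mem p (he T hT) (ind f)
    unfold fc at this ⊢
    rw [this, sq]
  have e2 : ∀ x, Lop p e (ind f) x * H x ≤ lam * |Lop p e (ind f) x| + (lam ^ 3)⁻¹ * H x ^ 4 := by
    intro x
    have hL := abs_Lop_le_one h0.le h1.le f e x
    have hL0 := abs_nonneg (Lop p e (ind f) x)
    have hm : Lop p e (ind f) x * H x ≤ |Lop p e (ind f) x| * |H x| := by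
      rw [← abs_mul]; exact le_abs_self _
    have h4 : 0 ≤ (lam ^ 3)⁻¹ * H x ^ 4 := by positivity
    by_cases hc : |H x| ≤ lam
    · have : |Lop p e (ind f) x| * |H x| ≤ |Lop p e (ind f) x| * lam :=
        mul_le_mul_of_nonneg_left hc hL0
      linarith
    · push Not at hc
      have ha : |H x| ≤ (lam ^ 3)⁻¹ * H x ^ 4 := by
        have : H x ^ 4 = |H x| ^ 3 * |H x| := by
          have h40 : 0 ≤ H x ^ 4 := by positivity
          rw [← pow_succ, ← abs_pow, abs_of_nonneg h40]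
        rw [this, ← mul_assoc]
        have h3 : lam ^ 3 ≤ |H x| ^ 3 := pow_le_pow_left₀ hlam.le hc.le 3
        have : 1 ≤ (lam ^ 3)⁻¹ * |H x| ^ 3 := by
          rw [inv_mul_eq_div, one_le_div hl3]; exact h3
        nlinarith [abs_nonneg (H x)]
      have : |Lop p e (ind f) x| * |H x| ≤ 1 * |H x| :=
        mul_le_mul_of_nonneg_right hL (abs_nonneg _)
      have : 0 ≤ lam * |Lop p e (ind f) x| := by positivity
      linarith
  have e3 := Ex_mono h0.le h1.le e2
  rw [e1, Ex_add, Ex_const_mul, Ex_const_mul, Ex_Lop_abs h0.le h1.le] at e3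
  have e4 : Ex p (fun x => H x ^ 4) ≤ (rho p ^ k * η) ^ 2 := bonami h0 h1 𝓣 k hk _
  have hr : 0 ≤ rho p ^ (2 * k) := by have := eight_le_rho h0 h1; positivity
  have e5 : (rho p ^ k * η) ^ 2 ≤ lam ^ 3 / 2 * η := by
    have : (rho p ^ k * η) ^ 2 = (rho p ^ (2 * k) * η) * η := by ring
    rw [this]
    refine mul_le_mul_of_nonneg_right ?_ hη0
    have : rho p ^ (2 * k) * η ≤ rho p ^ (2 * k) * β := mul_le_mul_of_nonneg_left hβ hr
    linarith
  have e6 : (lam ^ 3)⁻¹ * Ex p (fun x => H x ^ 4) ≤ η / 2 := by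
    have : (lam ^ 3)⁻¹ * Ex p (fun x => H x ^ 4) ≤ (lam ^ 3)⁻¹ * (lam ^ 3 / 2 * η) :=
      mul_le_mul_of_nonneg_left (e4.trans e5) (by positivity)
    refine this.trans (le_of_eq ?_)
    field_simp
  linarith

end Crest.Agent.Lib.BiasedCube
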