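import Crest.Agent.Lib.BiasedCube.Hyper

/-!
Restrictions: fix the coordinates outside `J` and view the function on the coordinates in `J`.
Also Poincaré's inequality and the Margulis–Russo derivative formula.
-/

set_option autoImplicit false

namespace Crest.Agent.Lib.BiasedCube

open Finset Crest.FinProb

variable {ι : Type*} [Fintype ι] [DecidableEq ι]

omit [Fintype ι] in
lemma chi_piecewise (p : ℝ) (J S : Finset ι) (x y : ι → Bool) :
    chi p S (J.piecewise y x) = chi p (S ∩ J) y * chi p (S \ J) x := by
  unfold chi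
  rw [← Finset.prod_inter_mul_prod_sdiff S J]
  congr 1
  · refine Finset.prod_congr rfl fun i hi => ?_
    rw [Finset.piecewise_eq_of_mem _ _ _ (Finset.mem_inter.1 hi).2]
  · refine Finset.prod_congr rfl fun i hi => ?_
    rw [Finset.piecewise_eq_of_notMem _ _ _ (Finset.mem_sdiff.1 hi).2]

lemma fc_restrict {p : ℝ} (h0 : 0 < p) (h1 : p < 1) (J T : Finset ι) (g : (ι → Bool) → ℝ)
    (x : ι → Bool) :
    fc p (fun y => g (J.piecewise y x)) T
      = ∑ S ∈ (univ : Finset (Finset ι)).filter (fun S => S ∩ J = T),
          fc p g S * chi p (S \ J) x := by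
  have : (fun y => g (J.piecewise y x) * chi p T y) = fun y =>
      ∑ S : Finset ι, (fc p g S * chi p (S \ J) x) * (chi p (S ∩ J) y * chi p T y) := by
    funext y
    rw [expansion h0 h1 g (J.piecewise y x), Finset.sum_mul]
    refine Finset.sum_congr rfl fun S _ => ?_
    rw [chi_piecewise]; ring
  conv_lhs => unfold fc
  rw [this, Ex_sum, Finset.sum_filter]
  refine Finset.sum_congr rfl fun S _ => ?_
  rw [Ex_const_mul, Ex_chi_mul_chi h0 h1]
  split_ifs <;> simp

lemma Ex_fc_restrict_sq {p : ℝ} (h0 : 0 < p) (h1 : p < 1) (J T : Finset ι)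
    (g : (ι → Bool) → ℝ) :
    Ex p (fun x => fc p (fun y => g (J.piecewise y x)) T ^ 2)
      = ∑ S ∈ (univ : Finset (Finset ι)).filter (fun S => S ∩ J = T), fc p g S ^ 2 := by
  simp_rw [fc_restrict h0 h1]
  refine Ex_sq_sum_chi h0 h1 _ (fun S => S \ J) ?_ _
  intro S hS S' hS' h
  simp only [Finset.coe_filter, Finset.mem_univ, true_and, Set.mem_ofPred_eq] at hS hS' h
  rw [← Finset.sdiff_union_inter S J, ← Finset.sdiff_union_inter S' J, h, hS, hS']

lemma Ex_Inf_restrict (p : ℝ) (J : Finset ι) {e : ι} (he : e ∈ J) (f : (ι → Bool) → Bool) :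
    Ex p (fun x => Inf p (fun y => f (J.piecewise y x)) e) = Inf p f e := by
  unfold Inf
  rw [← Ex_Ex_piecewise p J
    (fun z => if f (Function.update z e true) ≠ f (Function.update z e false) then 1 else 0)]
  refine Ex_congr p fun x => Ex_congr p fun y => ?_
  have : ∀ b, J.piecewise (Function.update y e b) x = Function.update (J.piecewise y x) e b := by
    intro b
    funext i
    by_cases hi : i = e
    · subst hi; simp [he]
    · rw [Function.update_of_ne hi]
      by_cases hJ : i ∈ J
      · simp [hJ, Function.update_of_ne hi]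
      · simp [hJ]
  simp only [this]

/-- Poincaré inequality. -/
lemma poincare {p : ℝ} (h0 : 0 < p) (h1 : p < 1) (f : (ι → Bool) → Bool) :
    Ex p (ind f) * (1 - Ex p (ind f)) ≤ p * (1 - p) * ∑ e, Inf p f e := by
  rw [var_eq_sum h0 h1, ← sum_card_mul_fc_sq h0 h1]
  calc ∑ S ∈ (univ : Finset (Finset ι)).erase ∅, fc p (ind f) S ^ 2
      ≤ ∑ S ∈ (univ : Finset (Finset ι)).erase ∅, (S.card : ℝ) * fc p (ind f) S ^ 2 := by
        refine Finset.sum_le_sum fun S hS => ?_
        have : 1 ≤ (S.card : ℝ) := by
          have := Finset.card_pos.2 (Finset.nonempty_iff_ne_empty.2 (Finset.ne_of_mem_erase hS))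
          exact_mod_cast this
        nlinarith [sq_nonneg (fc p (ind f) S)]
    _ ≤ _ := Finset.sum_le_sum_of_subset_of_nonneg (Finset.subset_univ _)
        fun S _ _ => by positivity

/-- Margulis–Russo: the derivative of the expectation in the bias. -/
lemma hasDerivAt_Ex {t : ℝ} (h0 : 0 < t) (h1 : t < 1) (g : (ι → Bool) → ℝ) :
    HasDerivAt (fun p => Ex p g)
      (∑ e, Ex t (fun x => g (Function.update x e true) - g (Function.update x e false))) t := by
  have hc : ∀ b : Bool, HasDerivAt (fun p => cw p b) (if b then 1 else -1) t := by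
    intro b
    cases b
    · simpa [cw] using (hasDerivAt_id t).const_sub 1
    · simpa [cw] using hasDerivAt_id' t
  have hw : ∀ x : ι → Bool, HasDerivAt (fun p => bernoulliWeight p x * g x)
      ((∑ e, (∏ j ∈ univ.erase e, cw t (x j)) • (if x e then (1 : ℝ) else -1)) * g x) t := by
    intro x
    exact (HasDerivAt.fun_finsetProd (u := univ) (f := fun i p => cw p (x i))
      (fun i _ => hc (x i))).mul_const (g x)
  have hs := HasDerivAt.fun_sum (u := (univ : Finset (ι → Bool))) (fun x _ => hw x)
  refine hs.congr_deriv ?_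
  symm
  simp_rw [Finset.sum_mul]
  rw [Finset.sum_comm]
  refine Finset.sum_congr rfl fun e _ => ?_
  have h2 : ∑ x : ι → Bool, (∏ j ∈ univ.erase e, cw t (x j)) • (if x e then (1 : ℝ) else -1) * g x
      = Ex t (fun x => (if x e then t⁻¹ else -(1 - t)⁻¹) * g x) := by
    unfold Ex
    refine Finset.sum_congr rfl fun x _ => ?_
    rw [bw_eq, ← Finset.mul_prod_erase univ (fun i => cw t (x i)) (mem_univ e)]
    have h1' : (1 - t) ≠ 0 := by linarith
    by_cases hx : x e = true
    · simp [hx]; field_simp
    · simp [hx]; field_simp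
  rw [h2, Ex_split t e (fun x => (if x e then t⁻¹ else -(1 - t)⁻¹) * g x)]
  refine Ex_congr t fun x => ?_
  have h1' : (1 - t) ≠ 0 := by linarith
  simp; field_simp; ring

lemma continuous_Ex (g : (ι → Bool) → ℝ) : Continuous (fun p => Ex p g) := by
  unfold Ex
  refine continuous_finsetSum _ fun x _ => Continuous.mul ?_ continuous_const
  simp only [bw_eq]
  refine continuous_finsetProd _ fun i _ => ?_
  cases x i
  · simp only [cw_false]; fun_prop
  · simp only [cw_true]; fun_prop

/-- Margulis–Russo for a monotone Boolean function. -/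
lemma hasDerivAt_Ex_ind {t : ℝ} (h0 : 0 < t) (h1 : t < 1) (f : (ι → Bool) → Bool)
    (hmono : ∀ x e, f (Function.update x e false) = true → f (Function.update x e true) = true) :
    HasDerivAt (fun p => Ex p (ind f)) (∑ e, Inf t f e) t := by
  convert hasDerivAt_Ex h0 h1 (ind f) using 2 with e
  unfold Inf
  refine Ex_congr t fun x => ?_
  have := hmono x e
  unfold ind
  revert this
  cases f (Function.update x e true) <;> cases f (Function.update x e false) <;> simp

end Crest.Agent.Lib.BiasedCube
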